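/-
helper8 -- S0505 squad (track D2, coordinator helper91): leaf F, homogeneity of the circuit.
All formal degrees are computed exactly:
leaves and bottom sums have degree 1, a lower product gate `(g, i, j, w)` has degree
`card (realSteps g)`, a middle sum gate `(g, i, j)` has the same degree (its input set is
non-empty as soon as block `g` has a genuine step: take `w` constant equal to `j`), a top
product gate has degree `∑ g, card (realSteps g)`.
-/
import Crest.Agent.Helper91.S0505.Defs

set_option autoImplicit false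

namespace Crest.Agent.Helper8.S0505

open Crest.ArithCircuit MvPolynomial Crest.Agent.Helper91.S0505

theorem snoc_const_apply {n m : ℕ} (j : Fin n) (x : Fin (m + 1)) :
    (Fin.snoc (fun _ : Fin m => j) j : Fin (m + 1) → Fin n) x = j := by
  induction x using Fin.lastCases with
  | last => simp
  | cast y => simp

theorem ext_const_of_ne_zero {n m : ℕ} (i j : Fin n) (x : Fin (m + 2)) (hx : x ≠ 0) :
    ext i (fun _ : Fin m => j) j x = j := by
  obtain ⟨y, rfl⟩ := Fin.exists_succ_eq_of_ne_zero hx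
  show (Fin.cons i (Fin.snoc (fun _ : Fin m => j) j) : Fin (m + 2) → Fin n) y.succ = j
  rw [Fin.cons_succ]
  exact snoc_const_apply j y

variable (K : Type*) [CommSemiring K] (n' t' ρ : ℕ)

theorem circ_leafDeg (l : Var (n' + 1)) : (circ K n' t' ρ).leafDeg l = 1 := rfl

theorem circ_degB (b : Var (n' + 1)) : (circ K n' t' ρ).degB b = 1 := by
  show (({b} : Finset (Var (n' + 1))).sup (circ K n' t' ρ).leafDeg) = 1
  rw [Finset.sup_singleton]
  rfl

theorem circ_degP (p : PIdx n' t' ρ) :
    (circ K n' t' ρ).degP p = (realSteps (n' + 1) (t' + 1) p.1.val).card := by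
  have h1 : (circ K n' t' ρ).degB = fun _ => 1 := funext (circ_degB K n' t' ρ)
  unfold SPSPS.degP
  rw [h1]
  simp [circ]

theorem mem_inS_iff (q : SIdx n' ρ) (p : PIdx n' t' ρ) :
    p ∈ (circ K n' t' ρ).inS q ↔
      ∃ w : Fin t' → Fin (n' + 1),
        (∀ s : Fin (t' + 1), n' + 1 ≤ q.1.val * (t' + 1) + s.val →
          ext q.2.1 w q.2.2 s.castSucc = ext q.2.1 w q.2.2 s.succ) ∧
        (q.1, q.2.1, q.2.2, w) = p := by
  simp [circ]

theorem degP_of_mem_inS (q : SIdx n' ρ) (p : PIdx n' t' ρ) (hp : p ∈ (circ K n' t' ρ).inS q) :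
    (circ K n' t' ρ).degP p = (realSteps (n' + 1) (t' + 1) q.1.val).card := by
  rw [circ_degP]
  obtain ⟨w, -, rfl⟩ := (mem_inS_iff K n' t' ρ q p).1 hp
  rfl

theorem const_mem_inS (q : SIdx n' ρ) (hne : (realSteps (n' + 1) (t' + 1) q.1.val).Nonempty) :
    (q.1, q.2.1, q.2.2, fun _ : Fin t' => q.2.2) ∈ (circ K n' t' ρ).inS q := by
  rw [mem_inS_iff]
  refine ⟨fun _ => q.2.2, ?_, rfl⟩
  intro s hs
  obtain ⟨s₀, hs₀⟩ := hne
  have hs₀' : q.1.val * (t' + 1) + s₀.val < n' + 1 := by
    simpa [realSteps] using hs₀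
  have hs0 : s ≠ 0 := by
    rintro rfl
    simp at hs
    omega
  have h1 : s.castSucc ≠ 0 := by
    intro h
    apply hs0
    exact Fin.castSucc_eq_zero_iff.1 h
  have h2 : s.succ ≠ 0 := Fin.succ_ne_zero s
  rw [ext_const_of_ne_zero _ _ _ h1, ext_const_of_ne_zero _ _ _ h2]

theorem circ_degS (q : SIdx n' ρ) :
    (circ K n' t' ρ).degS q = (realSteps (n' + 1) (t' + 1) q.1.val).card := by
  unfold SPSPS.degS
  apply le_antisymm
  · exact Finset.sup_le fun p hp => (degP_of_mem_inS K n' t' ρ q p hp).le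
  · by_cases hne : (realSteps (n' + 1) (t' + 1) q.1.val).Nonempty
    · have hmem := const_mem_inS K n' t' ρ q hne
      calc (realSteps (n' + 1) (t' + 1) q.1.val).card
          = (circ K n' t' ρ).degP (q.1, q.2.1, q.2.2, fun _ : Fin t' => q.2.2) :=
            (degP_of_mem_inS K n' t' ρ q _ hmem).symm
        _ ≤ _ := Finset.le_sup (f := (circ K n' t' ρ).degP) hmem
    · rw [Finset.not_nonempty_iff_eq_empty] at hne
      simp [hne]

theorem circ_degR (f : RIdx n' ρ) :
    (circ K n' t' ρ).degR f =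
      ∑ g : Fin (ρ + 1), (realSteps (n' + 1) (t' + 1) g.val).card := by
  have h1 : (circ K n' t' ρ).degS =
      fun q => (realSteps (n' + 1) (t' + 1) q.1.val).card := funext (circ_degS K n' t' ρ)
  unfold SPSPS.degR
  rw [h1]
  show (((Finset.univ : Finset (Fin (ρ + 1))).val.map fun g =>
      ((g, ext 0 f 0 g.castSucc, ext 0 f 0 g.succ) : SIdx n' ρ)).map
        fun q : SIdx n' ρ => (realSteps (n' + 1) (t' + 1) q.1.val).card).sum = _
  rw [Multiset.map_map]
  rfl

/-- Leaf F: the circuit is syntactically homogeneous (no hypothesis on the parameters). -/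
theorem circ_isHomogeneous (K : Type*) [CommSemiring K] (n' t' ρ : ℕ) :
    (circ K n' t' ρ).IsHomogeneous := by
  refine ⟨?_, ?_, ?_⟩
  · intro b l _
    rw [circ_leafDeg, circ_degB]
  · intro s p hp
    rw [circ_degS, degP_of_mem_inS K n' t' ρ s p hp]
  · intro r _
    have h1 : (circ K n' t' ρ).degR =
        fun _ => ∑ g : Fin (ρ + 1), (realSteps (n' + 1) (t' + 1) g.val).card :=
      funext (circ_degR K n' t' ρ)
    show (circ K n' t' ρ).degR r = (Finset.univ : Finset (RIdx n' ρ)).sup (circ K n' t' ρ).degR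
    rw [h1, Finset.sup_const Finset.univ_nonempty]

end Crest.Agent.Helper8.S0505
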